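import Mathlib
import Vale.Agent.Lib.P248.helper37.Q2Defs

/-!
# P248 (helper88): the cone inequality for compact convex subsets of the positive orthant

`M ⊆ R^(n+1)` compact, convex, contained in the closed positive orthant (not assumed
down-closed), and `y ∈ M`.  Then `∑ i, y i * |sec M i| ≤ (n + 1) * |M|`.

Proof: the cones with apex `y` over the sections `M ∩ {p i = 0}` lie in `M`, the cone over the
`i`-th section has volume at least `y i * |sec M i| / (n + 1)` (Fubini along the `i`-th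
coordinate), and two of them meet only inside the hyperplane `p i * y j = p j * y i`.
-/

open MeasureTheory Set

namespace Vale.Agent.Lib.P248.H88Q

open Vale.Agent.Lib.P248.H37 Vale.Agent.Lib.P248.H37Q

variable {n : ℕ}

/-- The cone with apex `y` over the section `sec M i`, placed in the hyperplane `p i = 0`. -/
def coneOver (M : Set (Fin (n + 1) → ℝ)) (y : Fin (n + 1) → ℝ) (i : Fin (n + 1)) :
    Set (Fin (n + 1) → ℝ) :=
  (fun q : ℝ × (Fin n → ℝ) =>
      (1 - q.1) • y + q.1 • (Fin.insertNth i (0 : ℝ) q.2 : Fin (n + 1) → ℝ)) ''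
    (Icc (0 : ℝ) 1 ×ˢ sec M i)

theorem isCompact_sec {M : Set (Fin (n + 1) → ℝ)} (hcomp : IsCompact M) (i : Fin (n + 1)) :
    IsCompact (sec M i) := by
  have e : sec M i = (fun p : Fin (n + 1) → ℝ => (fun j : Fin n => p (i.succAbove j))) ''
      (M ∩ {p | p i = 0}) := by
    ext z
    constructor
    · intro hz
      refine ⟨Fin.insertNth i (0 : ℝ) z, ⟨hz, ins_same i 0 z⟩, ?_⟩
      funext j
      exact ins_succ i 0 z j
    · rintro ⟨p, ⟨hp, hp0⟩, rfl⟩
      show (Fin.insertNth i (0 : ℝ) (fun j : Fin n => p (i.succAbove j)) : Fin (n + 1) → ℝ) ∈ M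
      have hp0' : p i = 0 := hp0
      have h : (Fin.insertNth i (0 : ℝ) (fun j : Fin n => p (i.succAbove j)) : Fin (n + 1) → ℝ)
          = p := by
        funext k
        revert k
        rw [i.forall_iff_succAbove]
        refine ⟨?_, fun j => ?_⟩
        · rw [ins_same, hp0']
        · rw [ins_succ]
      rw [h]
      exact hp
  rw [e]
  refine (hcomp.inter_right ?_).image ?_
  · exact isClosed_eq (continuous_apply i) continuous_const
  · exact continuous_pi (fun j => continuous_apply (i.succAbove j))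

theorem isCompact_coneOver {M : Set (Fin (n + 1) → ℝ)} (hcomp : IsCompact M)
    (y : Fin (n + 1) → ℝ) (i : Fin (n + 1)) : IsCompact (coneOver M y i) := by
  unfold coneOver
  refine (isCompact_Icc.prod (isCompact_sec hcomp i)).image ?_
  exact ((continuous_const.sub continuous_fst).smul continuous_const).add
    (continuous_fst.smul ((continuous_ins i).comp continuous_snd))

theorem coneOver_subset {M : Set (Fin (n + 1) → ℝ)} (hconv : Convex ℝ M)
    {y : Fin (n + 1) → ℝ} (hy : y ∈ M) (i : Fin (n + 1)) : coneOver M y i ⊆ M := by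
  rintro _ ⟨q, hq, rfl⟩
  have ht : q.1 ∈ Icc (0 : ℝ) 1 := hq.1
  have hb : (Fin.insertNth i (0 : ℝ) q.2 : Fin (n + 1) → ℝ) ∈ M := hq.2
  exact hconv hy hb (by linarith [ht.2]) ht.1 (by ring)

theorem coneOver_coord {M : Set (Fin (n + 1) → ℝ)} (hnn : ∀ p ∈ M, ∀ i, 0 ≤ p i)
    {y : Fin (n + 1) → ℝ} (hy : y ∈ M) {i : Fin (n + 1)} {p : Fin (n + 1) → ℝ}
    (hp : p ∈ coneOver M y i) (j : Fin (n + 1)) : p i * y j ≤ p j * y i := by
  obtain ⟨q, hq, rfl⟩ := hp
  have ht : q.1 ∈ Icc (0 : ℝ) 1 := hq.1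
  have hb : (Fin.insertNth i (0 : ℝ) q.2 : Fin (n + 1) → ℝ) ∈ M := hq.2
  have hc : 0 ≤ (Fin.insertNth i (0 : ℝ) q.2 : Fin (n + 1) → ℝ) j := hnn _ hb j
  have hyi : 0 ≤ y i := hnn y hy i
  have h3 : 0 ≤ q.1 * (Fin.insertNth i (0 : ℝ) q.2 : Fin (n + 1) → ℝ) j * y i :=
    mul_nonneg (mul_nonneg ht.1 hc) hyi
  simp only [Pi.add_apply, Pi.smul_apply, smul_eq_mul, ins_same, mul_zero, add_zero]
  nlinarith

theorem coneOver_inter_null {M : Set (Fin (n + 1) → ℝ)} (hnn : ∀ p ∈ M, ∀ i, 0 ≤ p i)
    {y : Fin (n + 1) → ℝ} (hy : y ∈ M) {i j : Fin (n + 1)} (hij : i ≠ j) (hyi : 0 < y i) :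
    volume (coneOver M y i ∩ coneOver M y j) = 0 := by
  set φ : (Fin (n + 1) → ℝ) →ₗ[ℝ] ℝ :=
    y j • LinearMap.proj i - y i • LinearMap.proj j with hφ
  have hφa : ∀ p : Fin (n + 1) → ℝ, φ p = y j * p i - y i * p j := by
    intro p
    simp [hφ]
  have hker : LinearMap.ker φ ≠ ⊤ := by
    intro htop
    have h1 : (Pi.single j (1 : ℝ) : Fin (n + 1) → ℝ) ∈ LinearMap.ker φ := by
      rw [htop]
      trivial
    rw [LinearMap.mem_ker, hφa, Pi.single_eq_of_ne hij, Pi.single_eq_same] at h1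
    linarith
  have hnull := Measure.addHaar_submodule (volume : Measure (Fin (n + 1) → ℝ))
    (LinearMap.ker φ) hker
  refine measure_mono_null ?_ hnull
  rintro p ⟨hpi, hpj⟩
  have h1 := coneOver_coord hnn hy hpi j
  have h2 := coneOver_coord hnn hy hpj i
  show p ∈ LinearMap.ker φ
  rw [LinearMap.mem_ker, hφa]
  linarith

theorem lintegral_profile (n : ℕ) (h : ℝ) (hh : 0 < h) :
    ∫⁻ t in Ico (0:ℝ) h, ENNReal.ofReal ((1 - t / h) ^ n) = ENNReal.ofReal (h / (n + 1)) := by
  have hcont : Continuous (fun t : ℝ => (1 - t / h) ^ n) := by fun_prop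
  have hint : IntegrableOn (fun t : ℝ => (1 - t / h) ^ n) (Ico (0:ℝ) h) :=
    (hcont.integrableOn_Icc).mono_set Ico_subset_Icc_self
  have hnn : 0 ≤ᵐ[volume.restrict (Ico (0:ℝ) h)] (fun t : ℝ => (1 - t / h) ^ n) := by
    refine (ae_restrict_iff' measurableSet_Ico).mpr (Filter.Eventually.of_forall fun t ht => ?_)
    have h1 : t / h ≤ 1 := (div_le_one hh).mpr ht.2.le
    exact pow_nonneg (by linarith) n
  rw [← ofReal_integral_eq_lintegral_ofReal hint hnn]
  congr 1
  rw [integral_Ico_eq_integral_Ioc, ← intervalIntegral.integral_of_le hh.le]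
  have hderiv : ∀ x ∈ uIcc (0:ℝ) h,
      HasDerivAt (fun t : ℝ => -(h / (n + 1)) * (1 - t / h) ^ (n + 1)) ((1 - x / h) ^ n) x := by
    intro x _
    have h1 : HasDerivAt (fun t : ℝ => 1 - t / h) (-(1 / h)) x := by
      have h0 := ((hasDerivAt_id x).div_const h).const_sub 1
      simpa using h0
    have h2 : HasDerivAt (fun t : ℝ => -(h / (n + 1)) * (1 - t / h) ^ (n + 1))
        (-(h / (n + 1)) * (((n + 1 : ℕ) : ℝ) * (1 - x / h) ^ (n + 1 - 1) * -(1 / h))) x :=
      (h1.pow (n + 1)).const_mul (-(h / (n + 1)))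
    refine h2.congr_deriv ?_
    have hn : (n : ℝ) + 1 ≠ 0 := by positivity
    rw [Nat.add_sub_cancel]
    push_cast
    field_simp
  rw [intervalIntegral.integral_eq_sub_of_hasDerivAt hderiv (hcont.intervalIntegrable _ _)]
  have h0 : (1 - h / h) = 0 := by rw [div_self hh.ne', sub_self]
  rw [h0]
  simp

theorem volume_coneOver_ge {M : Set (Fin (n + 1) → ℝ)} (hcomp : IsCompact M)
    (y : Fin (n + 1) → ℝ) (i : Fin (n + 1)) (hyi : 0 < y i) :
    ENNReal.ofReal (y i / (n + 1)) * volume (sec M i) ≤ volume (coneOver M y i) := by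
  have hmeas : MeasurableSet (coneOver M y i) :=
    (isCompact_coneOver hcomp y i).isClosed.measurableSet
  set e := MeasurableEquiv.piFinSuccAbove (fun _ : Fin (n + 1) => ℝ) i with he
  set P : Set (ℝ × (Fin n → ℝ)) := e.symm ⁻¹' coneOver M y i with hP
  have hPm : MeasurableSet P := e.symm.measurable hmeas
  have hvol : volume (coneOver M y i) = volume P := by
    have h1 : e ⁻¹' P = coneOver M y i := by
      rw [hP, ← Set.preimage_comp]
      simp
    rw [← h1]
    exact (volume_preserving_piFinSuccAbove (fun _ : Fin (n + 1) => ℝ) i).measure_preimage_equiv P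
  have hslice : ∀ s ∈ Ico (0 : ℝ) (y i),
      ENNReal.ofReal ((1 - s / y i) ^ n) * volume (sec M i) ≤ volume (Prod.mk s ⁻¹' P) := by
    intro s hs
    have hr0 : 0 ≤ s / y i := div_nonneg hs.1 hyi.le
    have hr1 : s / y i < 1 := (div_lt_one hyi).mpr hs.2
    have hsub : AffineMap.homothety (fun j : Fin n => y (i.succAbove j)) (1 - s / y i) '' sec M i
        ⊆ Prod.mk s ⁻¹' P := by
      rintro _ ⟨b, hb, rfl⟩
      show e.symm (s, AffineMap.homothety (fun j : Fin n => y (i.succAbove j)) (1 - s / y i) b)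
        ∈ coneOver M y i
      refine ⟨(1 - s / y i, b), ⟨⟨by linarith, by linarith⟩, hb⟩, ?_⟩
      funext k
      revert k
      rw [i.forall_iff_succAbove]
      have e1 : s / y i * y i = s := div_mul_cancel₀ s hyi.ne'
      refine ⟨?_, fun j => ?_⟩
      · simp [he]
        linarith
      · simp [he, AffineMap.homothety_apply]
        ring
    calc ENNReal.ofReal ((1 - s / y i) ^ n) * volume (sec M i)
        = volume (AffineMap.homothety (fun j : Fin n => y (i.succAbove j)) (1 - s / y i) ''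
            sec M i) := by
          rw [Measure.addHaar_image_homothety, Module.finrank_fin_fun,
            abs_of_nonneg (pow_nonneg (by linarith) n)]
      _ ≤ volume (Prod.mk s ⁻¹' P) := measure_mono hsub
  have hmf : Measurable (fun t : ℝ => ENNReal.ofReal ((1 - t / y i) ^ n)) := by fun_prop
  rw [hvol, Measure.volume_eq_prod, Measure.prod_apply hPm]
  calc ENNReal.ofReal (y i / (n + 1)) * volume (sec M i)
      = (∫⁻ t in Ico (0:ℝ) (y i), ENNReal.ofReal ((1 - t / y i) ^ n)) * volume (sec M i) := by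
        rw [lintegral_profile n (y i) hyi]
    _ = ∫⁻ t in Ico (0:ℝ) (y i), ENNReal.ofReal ((1 - t / y i) ^ n) * volume (sec M i) := by
        rw [lintegral_mul_const _ hmf]
    _ ≤ ∫⁻ t in Ico (0:ℝ) (y i), volume (Prod.mk t ⁻¹' P) :=
        setLIntegral_mono' measurableSet_Ico hslice
    _ ≤ ∫⁻ t, volume (Prod.mk t ⁻¹' P) := setLIntegral_le_lintegral _ _

/-- **Cone inequality for compact convex subsets of the positive orthant.** -/
theorem cone_ineq_convex (n : ℕ) (M : Set (Fin (n + 1) → ℝ)) (hcomp : IsCompact M)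
    (hconv : Convex ℝ M) (hnn : ∀ p ∈ M, ∀ i, 0 ≤ p i) (y : Fin (n + 1) → ℝ) (hy : y ∈ M) :
    ∑ i, ENNReal.ofReal (y i) * volume (sec M i) ≤ ((n : ENNReal) + 1) * volume M := by
  classical
  set s : Finset (Fin (n + 1)) := Finset.univ.filter (fun i => 0 < y i) with hs
  have h1 : ∑ i, ENNReal.ofReal (y i) * volume (sec M i)
      = ∑ i ∈ s, ENNReal.ofReal (y i) * volume (sec M i) := by
    rw [hs, Finset.sum_filter]
    refine Finset.sum_congr rfl (fun i _ => ?_)
    split_ifs with h
    · rfl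
    · rw [ENNReal.ofReal_of_nonpos (not_lt.mp h), zero_mul]
  have h2 : ∀ i ∈ s, ENNReal.ofReal (y i) * volume (sec M i)
      ≤ ((n : ENNReal) + 1) * volume (coneOver M y i) := by
    intro i hi
    have hyi : 0 < y i := (Finset.mem_filter.mp hi).2
    have h := volume_coneOver_ge hcomp y i hyi
    have e : ENNReal.ofReal (y i) = ((n : ENNReal) + 1) * ENNReal.ofReal (y i / (n + 1)) := by
      have e0 : ((n : ENNReal) + 1) = ENNReal.ofReal ((n : ℝ) + 1) := by
        rw [ENNReal.ofReal_add (by positivity) (by norm_num), ENNReal.ofReal_natCast,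
          ENNReal.ofReal_one]
      rw [e0, ← ENNReal.ofReal_mul (by positivity)]
      congr 1
      field_simp
    rw [e, mul_assoc]
    gcongr
  have h3 : volume (⋃ i ∈ s, coneOver M y i) = ∑ i ∈ s, volume (coneOver M y i) := by
    refine measure_biUnion_finset₀ ?_ (fun i _ =>
      (isCompact_coneOver hcomp y i).isClosed.measurableSet.nullMeasurableSet)
    intro i hi j _ hij
    exact coneOver_inter_null hnn hy hij (Finset.mem_filter.mp (Finset.mem_coe.mp hi)).2
  calc ∑ i, ENNReal.ofReal (y i) * volume (sec M i)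
      = ∑ i ∈ s, ENNReal.ofReal (y i) * volume (sec M i) := h1
    _ ≤ ∑ i ∈ s, ((n : ENNReal) + 1) * volume (coneOver M y i) := Finset.sum_le_sum h2
    _ = ((n : ENNReal) + 1) * volume (⋃ i ∈ s, coneOver M y i) := by
        rw [h3, Finset.mul_sum]
    _ ≤ ((n : ENNReal) + 1) * volume M := by
        gcongr
        exact iUnion₂_subset (fun i _ => coneOver_subset hconv hy i)

end Vale.Agent.Lib.P248.H88Q
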